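import Mathlib

/-!
# P235, the static plan
-/

set_option autoImplicit false

namespace Vale.Agent.P235.ST.H188

variable {V : Type*} [Fintype V]

open Classical in
/-- The next scale function. -/
noncomputable def nxt (d : V → V → ℝ) (κ : ℝ) (Uns : (V → ℝ) → V → V → Prop) (ρ : V → ℝ) (x : V) :
    ℝ :=
  (Finset.univ : Finset (V × V)).sup' ⟨(x, x), Finset.mem_univ _⟩
    fun p => if Uns ρ p.1 p.2 then max 0 (d p.1 p.2 - d x p.1 / κ) else 0

/-- The scale functions. -/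
noncomputable def rho (d : V → V → ℝ) (κ : ℝ) (Uns : (V → ℝ) → V → V → Prop) (R : ℝ) :
    ℕ → V → ℝ
  | 0 => fun _ => R
  | i + 1 => nxt d κ Uns (rho d κ Uns R i)

section
variable {d : V → V → ℝ} {κ : ℝ} {Uns : (V → ℝ) → V → V → Prop} {ρ : V → ℝ}

lemma nxt_nonneg (x : V) : 0 ≤ nxt d κ Uns ρ x := by
  classical
  unfold nxt
  refine le_trans ?_ (Finset.le_sup' (f := fun p : V × V =>
    if Uns ρ p.1 p.2 then max 0 (d p.1 p.2 - d x p.1 / κ) else 0) (Finset.mem_univ (x, x)))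
  split_ifs
  · exact le_max_left _ _
  · exact le_refl _

lemma le_nxt {z y : V} (h : Uns ρ z y) (x : V) : d z y - d x z / κ ≤ nxt d κ Uns ρ x := by
  classical
  unfold nxt
  refine le_trans ?_ (Finset.le_sup' (f := fun p : V × V =>
    if Uns ρ p.1 p.2 then max 0 (d p.1 p.2 - d x p.1 / κ) else 0) (Finset.mem_univ (z, y)))
  simp only [if_pos h]
  exact le_max_right _ _

/-- The witness. -/
lemma exists_of_nxt_pos {x : V} (h : 0 < nxt d κ Uns ρ x) :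
    ∃ z y, Uns ρ z y ∧ nxt d κ Uns ρ x = d z y - d x z / κ := by
  classical
  unfold nxt at h ⊢
  obtain ⟨p, _, hp⟩ := Finset.exists_mem_eq_sup' (s := (Finset.univ : Finset (V × V)))
    ⟨(x, x), Finset.mem_univ _⟩
    (fun p : V × V => if Uns ρ p.1 p.2 then max 0 (d p.1 p.2 - d x p.1 / κ) else 0)
  rw [hp] at h ⊢
  by_cases hu : Uns ρ p.1 p.2
  · simp only [if_pos hu] at h ⊢
    refine ⟨p.1, p.2, hu, ?_⟩
    rcases le_total (d p.1 p.2 - d x p.1 / κ) 0 with h0 | h0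
    · rw [max_eq_left h0] at h
      exact absurd h (lt_irrefl _)
    · exact max_eq_right h0
  · simp only [if_neg hu] at h
    exact absurd h (lt_irrefl _)

lemma nxt_le {x : V} {B : ℝ} (hB : 0 ≤ B) (h : ∀ z y, Uns ρ z y → d z y - d x z / κ ≤ B) :
    nxt d κ Uns ρ x ≤ B := by
  rcases (nxt_nonneg (d := d) (κ := κ) (Uns := Uns) (ρ := ρ) x).lt_or_eq with h0 | h0
  · obtain ⟨z, y, hu, he⟩ := exists_of_nxt_pos h0
    rw [he]
    exact h z y hu
  · rw [← h0]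
    exact hB

/-- The value at an unserved point. -/
lemma dist_le_nxt (hd0 : ∀ x, d x x = 0) {z y : V} (h : Uns ρ z y) : d z y ≤ nxt d κ Uns ρ z := by
  have := le_nxt (d := d) (κ := κ) h z
  rw [hd0, zero_div, sub_zero] at this
  exact this

/-- The Lipschitz property. -/
lemma nxt_lip (hκ : 0 < κ) (hd : ∀ x y, 0 ≤ d x y) (htri : ∀ x y z, d x z ≤ d x y + d y z)
    (x y : V) : nxt d κ Uns ρ x ≤ nxt d κ Uns ρ y + d y x / κ := by
  refine nxt_le (add_nonneg (nxt_nonneg y) (div_nonneg (hd y x) hκ.le)) fun z w hu => ?_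
  have h1 := le_nxt (d := d) (κ := κ) hu y
  have h2 : d y z / κ ≤ d y x / κ + d x z / κ := by
    rw [← add_div]
    exact div_le_div_of_nonneg_right (htri y x z) hκ.le
  linarith

/-- The scale drops. -/
lemma nxt_le_mul (hκ : 0 < κ) (hd : ∀ x y, 0 ≤ d x y) {q : ℝ} (hq0 : 0 ≤ q) (hq1 : q ≤ 1)
    (hρ0 : ∀ x, 0 ≤ ρ x) (hρ : ∀ x y, ρ x ≤ ρ y + d y x / κ)
    (hU : ∀ z y, Uns ρ z y → d z y ≤ q * ρ z) (x : V) : nxt d κ Uns ρ x ≤ q * ρ x := by
  refine nxt_le (mul_nonneg hq0 (hρ0 x)) fun z y hu => ?_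
  have h1 := hU z y hu
  have h2 := hρ z x
  have h3 : 0 ≤ d x z / κ := div_nonneg (hd x z) hκ.le
  have h4 : q * ρ z ≤ q * ρ x + q * (d x z / κ) := by
    rw [← mul_add]
    exact mul_le_mul_of_nonneg_left h2 hq0
  have h5 : q * (d x z / κ) ≤ 1 * (d x z / κ) := mul_le_mul_of_nonneg_right hq1 h3
  linarith

lemma nxt_eq_zero (h : ∀ z y, ¬ Uns ρ z y) (x : V) : nxt d κ Uns ρ x = 0 :=
  le_antisymm (nxt_le le_rfl fun z y hu => absurd hu (h z y)) (nxt_nonneg x)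

end

section seq
variable {d : V → V → ℝ} {κ q r0 R : ℝ} {Uns : (V → ℝ) → V → V → Prop}

lemma rho_zero (x : V) : rho d κ Uns R 0 x = R := rfl

lemma rho_succ (i : ℕ) : rho d κ Uns R (i + 1) = nxt d κ Uns (rho d κ Uns R i) := rfl

lemma rho_nonneg (hR : 0 ≤ R) (i : ℕ) (x : V) : 0 ≤ rho d κ Uns R i x := by
  cases i with
  | zero => exact hR
  | succ i => exact nxt_nonneg x

lemma rho_lip (hκ : 0 < κ) (hd : ∀ x y, 0 ≤ d x y) (htri : ∀ x y z, d x z ≤ d x y + d y z)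
    (i : ℕ) (x y : V) : rho d κ Uns R i x ≤ rho d κ Uns R i y + d y x / κ := by
  cases i with
  | zero =>
    have := div_nonneg (hd y x) hκ.le
    rw [rho_zero, rho_zero]
    linarith
  | succ i => exact nxt_lip hκ hd htri x y

lemma rho_succ_le (hκ : 0 < κ) (hd : ∀ x y, 0 ≤ d x y) (htri : ∀ x y z, d x z ≤ d x y + d y z)
    (hR : 0 ≤ R) (hq0 : 0 ≤ q) (hq1 : q ≤ 1)
    (hU : ∀ (ρ : V → ℝ) z y, Uns ρ z y → d z y ≤ q * ρ z) (i : ℕ) (x : V) :
    rho d κ Uns R (i + 1) x ≤ q * rho d κ Uns R i x :=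
  nxt_le_mul hκ hd hq0 hq1 (rho_nonneg hR i) (rho_lip hκ hd htri i) (hU _) x

lemma rho_le_pow (hκ : 0 < κ) (hd : ∀ x y, 0 ≤ d x y) (htri : ∀ x y z, d x z ≤ d x y + d y z)
    (hR : 0 ≤ R) (hq0 : 0 ≤ q) (hq1 : q ≤ 1)
    (hU : ∀ (ρ : V → ℝ) z y, Uns ρ z y → d z y ≤ q * ρ z) (i : ℕ) (x : V) :
    rho d κ Uns R i x ≤ q ^ i * R := by
  induction i with
  | zero => simp [rho_zero]
  | succ i ih =>
    calc rho d κ Uns R (i + 1) x ≤ q * rho d κ Uns R i x :=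
          rho_succ_le hκ hd htri hR hq0 hq1 hU i x
      _ ≤ q * (q ^ i * R) := mul_le_mul_of_nonneg_left ih hq0
      _ = q ^ (i + 1) * R := by ring

lemma rho_antitone (hκ : 0 < κ) (hd : ∀ x y, 0 ≤ d x y)
    (htri : ∀ x y z, d x z ≤ d x y + d y z) (hR : 0 ≤ R) (hq0 : 0 ≤ q) (hq1 : q ≤ 1)
    (hU : ∀ (ρ : V → ℝ) z y, Uns ρ z y → d z y ≤ q * ρ z) (i : ℕ) (x : V) :
    rho d κ Uns R (i + 1) x ≤ rho d κ Uns R i x := by
  refine (rho_succ_le hκ hd htri hR hq0 hq1 hU i x).trans ?_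
  have h1 := rho_nonneg (d := d) (κ := κ) (Uns := Uns) hR i x
  nlinarith

/-- The plan stops. -/
theorem exists_rho_zero (hκ : 0 < κ) (hd : ∀ x y, 0 ≤ d x y)
    (htri : ∀ x y z, d x z ≤ d x y + d y z) (hR : 0 ≤ R) (hq0 : 0 ≤ q) (hq1 : q < 1)
    (hU : ∀ (ρ : V → ℝ) z y, Uns ρ z y → d z y ≤ q * ρ z) (hr : 0 < r0)
    (hU' : ∀ (ρ : V → ℝ) z y, Uns ρ z y → r0 ≤ d z y ∧ d z y ≤ κ * ρ z / 2) :
    ∃ n, ∀ x, rho d κ Uns R n x = 0 := by
  have h1 : Filter.Tendsto (fun i : ℕ => q ^ i * R) Filter.atTop (nhds (0 * R)) :=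
    (tendsto_pow_atTop_nhds_zero_of_lt_one hq0 hq1).mul_const R
  rw [zero_mul] at h1
  have h2 : ∀ᶠ i : ℕ in Filter.atTop, q ^ i * R < 2 * r0 / κ :=
    h1.eventually (gt_mem_nhds (by positivity))
  obtain ⟨i, hi⟩ := h2.exists
  refine ⟨i + 1, fun x => ?_⟩
  rw [rho_succ]
  apply nxt_eq_zero
  intro z y hu
  obtain ⟨h3, h4⟩ := hU' _ z y hu
  have h5 := rho_le_pow hκ hd htri hR hq0 hq1.le hU i z
  have h6 : rho d κ Uns R i z < 2 * r0 / κ := lt_of_le_of_lt h5 hi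
  rw [lt_div_iff₀ hκ] at h6
  linarith

/-- The level of a pair. -/
theorem exists_level (hd0 : ∀ x, d x x = 0) {n : ℕ} (hn : ∀ x, rho d κ Uns R n x = 0)
    {x : V} {s : ℝ} (hs : 0 < s) (hsR : s ≤ R) :
    ∃ i, i < n ∧ rho d κ Uns R (i + 1) x < s ∧ s ≤ rho d κ Uns R i x ∧
      ∀ y, s ≤ d x y → ¬ Uns (rho d κ Uns R i) x y := by
  classical
  have hP : ∃ i, rho d κ Uns R i x < s := ⟨n, by rw [hn]; exact hs⟩
  have h0 : Nat.find hP ≠ 0 := by
    intro h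
    have := Nat.find_spec hP
    rw [h, rho_zero] at this
    linarith
  obtain ⟨i, hi⟩ := Nat.exists_eq_succ_of_ne_zero h0
  have h1 : rho d κ Uns R (i + 1) x < s := by
    have := Nat.find_spec hP
    rw [hi] at this
    exact this
  have h2 : s ≤ rho d κ Uns R i x := by
    have := Nat.find_min hP (m := i) (by rw [hi]; exact Nat.lt_succ_self i)
    exact not_lt.1 this
  have h3 : Nat.find hP ≤ n := Nat.find_le (by rw [hn]; exact hs)
  refine ⟨i, by rw [hi] at h3; omega, h1, h2, fun y hy hu => ?_⟩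
  have h4 := dist_le_nxt (κ := κ) hd0 hu
  rw [rho_succ] at h1
  linarith

end seq

end Vale.Agent.P235.ST.H188
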