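import Vale.Agent.P235.ST.H317.Defs2
import Vale.Agent.P235.ST.H188.Plan
import Vale.Agent.P235.ST.H119.Clock

/-!
# P235, rows r3, r4, r5: the scale functions of a lined world
-/

set_option autoImplicit false

namespace Vale.Agent.P235.STO.H188

open SimpleGraph

variable {V : Type} (W : LWorld V)

lemma kap_pos : 0 < kap := by unfold kap; positivity

lemma d_nonneg (x y : V) : 0 ≤ W.d x y := by unfold LWorld.d; positivity

lemma d_self (x : V) : W.d x x = 0 := by simp [LWorld.d]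

lemma d_comm (x y : V) : W.d x y = W.d y x := by simp [LWorld.d, SimpleGraph.dist_comm]

lemma d_tri (x y z : V) : W.d x z ≤ W.d x y + W.d y z := by
  unfold LWorld.d
  exact_mod_cast W.conn.dist_triangle

lemma d_lt_card [Fintype V] (x y : V) : W.d x y < Fintype.card V := by
  obtain ⟨p, hp, hl⟩ := W.conn.exists_path_of_dist x y
  unfold LWorld.d
  rw [← hl]
  exact_mod_cast hp.length_lt

variable [Fintype V]

lemma nxt_eq (ρ : V → ℝ) (x : V) : W.nxt ρ x = ST.H188.nxt W.d kap W.uns ρ x := by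
  classical
  unfold LWorld.nxt ST.H188.nxt
  have : Nonempty (V × V) := ⟨(x, x)⟩
  rw [← Finset.sup'_univ_eq_ciSup]

lemma nxt_eq' (ρ : V → ℝ) : W.nxt ρ = ST.H188.nxt W.d kap W.uns ρ := funext (nxt_eq W ρ)

lemma rho_eq (i : ℕ) :
    W.rho i = ST.H188.rho W.d kap W.uns ((4 * Fintype.card V) / kap) i := by
  induction i with
  | zero => rfl
  | succ i ih =>
    show W.nxt (W.rho i) = ST.H188.nxt W.d kap W.uns _
    rw [nxt_eq', ih]

theorem nxt_scale (ρ : V → ℝ) : W.Scale (W.nxt ρ) := by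
  refine ⟨fun x => by rw [nxt_eq]; exact ST.H188.nxt_nonneg x, fun x y => ?_⟩
  rw [nxt_eq, nxt_eq, abs_le]
  have h1 := ST.H188.nxt_lip (Uns := W.uns) (ρ := ρ) kap_pos (d_nonneg W) (d_tri W) x y
  have h2 := ST.H188.nxt_lip (Uns := W.uns) (ρ := ρ) kap_pos (d_nonneg W) (d_tri W) y x
  rw [d_comm W y x] at h1
  constructor <;> linarith

theorem rho_scale (i : ℕ) : W.Scale (W.rho i) := by
  cases i with
  | zero =>
    refine ⟨fun x => ?_, fun x y => ?_⟩
    · show 0 ≤ (4 * (Fintype.card V : ℝ)) / kap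
      have := kap_pos
      positivity
    · show |(4 * (Fintype.card V : ℝ)) / kap - (4 * (Fintype.card V : ℝ)) / kap| ≤ _
      rw [sub_self, abs_zero]
      exact div_nonneg (d_nonneg W x y) kap_pos.le
  | succ i => exact nxt_scale W (W.rho i)

theorem nxt_attain {ρ : V → ℝ} {x : V} (h : 0 < W.nxt ρ x) :
    ∃ z y, W.uns ρ z y ∧ W.nxt ρ x = W.d z y - W.d x z / kap := by
  rw [nxt_eq] at h ⊢
  exact ST.H188.exists_of_nxt_pos h

theorem le_nxt {ρ : V → ℝ} {z y : V} (hu : W.uns ρ z y) (x : V) :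
    W.d z y - W.d x z / kap ≤ W.nxt ρ x := by
  rw [nxt_eq]
  exact ST.H188.le_nxt hu x

omit [Fintype V] in
/-- The scale at the first vertex of an unserved pair is large. -/
lemma big_of_uns {ρ : V → ℝ} {z y : V} (hu : W.uns ρ z y) : 2 ^ 113 ≤ ρ z := by
  obtain ⟨_, _, _, _, h1, h2, _⟩ := hu
  unfold r0 at h1
  unfold kap at h2
  have : (2 : ℝ) ^ 113 = 2 * 2 ^ 90 * 2 ^ 22 := by norm_num
  rw [this]
  have h3 : 2 * W.d z y * 2 ^ 22 ≤ ρ z := by
    rw [one_div, inv_mul_eq_div, le_div_iff₀ (by positivity)] at h2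
    exact h2
  nlinarith

theorem uns_le_aux {ρ : V → ℝ} {z y : V} (hu : W.uns ρ z y) :
    W.d z y ≤ 16 * d1 * ρ z := by
  classical
  have hbig := big_of_uns W hu
  obtain ⟨hz, hy, _, hi, h1, h2, h3⟩ := hu
  have hP : ∃ k : ℕ, d1 * ρ z ≤ (th k : ℝ) := by
    obtain ⟨n, hn⟩ := pow_unbounded_of_one_lt (d1 * ρ z) (by norm_num : (1 : ℝ) < 2)
    refine ⟨n, ?_⟩
    unfold th
    push_cast
    have : (0 : ℝ) < 2 ^ n := by positivity
    linarith
  have hk := Nat.find_spec hP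
  have hk0 : Nat.find hP ≠ 0 := by
    intro h0
    rw [h0] at hk
    unfold th d1 at hk
    norm_num at hk
    have : (2 : ℝ) ^ 113 ≤ ρ z := hbig
    norm_num at this
    linarith
  obtain ⟨j, hj⟩ := Nat.exists_eq_succ_of_ne_zero hk0
  have hj' : ¬ d1 * ρ z ≤ (th j : ℝ) := Nat.find_min hP (by rw [hj]; exact Nat.lt_succ_self j)
  rw [not_le] at hj'
  set k := Nat.find hP
  have hth : (th k : ℝ) = 2 * (th j : ℝ) := by
    rw [hj]
    unfold th
    push_cast
    rw [Nat.succ_eq_add_one, pow_succ]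
    ring
  have hρ : 0 < ρ z := lt_of_lt_of_le (by positivity) hbig
  have hl : inList (ρ z) k := by
    refine ⟨hk, ?_⟩
    have h5 : (2 : ℝ) * (d1 * ρ z) ≤ dl * ρ z := by
      rw [← mul_assoc]
      refine mul_le_mul_of_nonneg_right ?_ hρ.le
      unfold d1 dl
      norm_num
    linarith
  obtain ⟨m, hm, hmid⟩ := H119.exists_mid W k z
  have h6 := h3 k m hm hl
  have h7 : (W.Bg k m).Reachable z y ∧ (W.D k m y : ℝ) - (W.D k m z : ℝ) < cp * W.d z y := by
    constructor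
    · by_contra hcon
      exact h6 ⟨hmid, Or.inl hcon⟩
    · by_contra hcon
      exact h6 ⟨hmid, Or.inr (not_lt.1 hcon)⟩
  obtain ⟨h8, h9⟩ := h7
  have h10 := H119.D_T W k m hz hy h8 hi
  have h11 := (H119.bi_of_reach W k m h8).2
  have h12 : (W.D k m z : ℝ) + ((W.Bg k m).dist z y : ℝ) ≤ W.D k m y + 2 * (th k : ℝ) := by
    exact_mod_cast h10
  have h13 : W.d z y ≤ ((W.Bg k m).dist z y : ℝ) := by
    unfold LWorld.d
    exact_mod_cast h11
  have h14 : cp * W.d z y ≤ 1 / 2 * W.d z y :=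
    mul_le_mul_of_nonneg_right (by unfold cp; norm_num) (d_nonneg W z y)
  have h15 : 0 < d1 * ρ z := mul_pos (by unfold d1; positivity) hρ
  linarith

theorem uns_le {ρ : V → ℝ} (_h : W.Scale ρ) {z y : V} (hu : W.uns ρ z y) :
    W.d z y ≤ 16 * d1 * ρ z := uns_le_aux W hu

theorem nxt_le {ρ : V → ℝ} (h : W.Scale ρ) (x : V) : W.nxt ρ x ≤ 16 * d1 * ρ x := by
  rw [nxt_eq]
  refine ST.H188.nxt_le_mul kap_pos (d_nonneg W) (by unfold d1; positivity)
    (by unfold d1; norm_num) h.nonneg (fun x y => ?_) (fun z y hu => uns_le_aux W hu) x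
  have := (abs_le.1 (h.lip x y)).2
  rw [d_comm W y x]
  linarith

theorem rho_eventually : ∃ n, ∀ x, W.rho n x = 0 := by
  obtain ⟨n, hn⟩ := ST.H188.exists_rho_zero (d := W.d) (κ := kap) (q := 16 * d1) (r0 := r0)
    (R := (4 * Fintype.card V) / kap) (Uns := W.uns) kap_pos (d_nonneg W) (d_tri W)
    (div_nonneg (by positivity) kap_pos.le) (by unfold d1; positivity) (by unfold d1; norm_num)
    (fun ρ z y hu => uns_le_aux W hu) (by unfold r0; positivity) (fun ρ z y hu => by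
      obtain ⟨_, _, _, _, h1, h2, _⟩ := hu
      exact ⟨h1, by linarith⟩)
  exact ⟨n, fun x => by rw [rho_eq]; exact hn x⟩

theorem exists_level {z y : V} (hz : z ∈ W.N) (hy : y ∈ W.N) (hu : W.u z = W.u y)
    (hi : W.idx z ≤ W.idx y) (hd : r0 ≤ W.d z y) : ∃ i, W.tgt (W.rho i) z y := by
  obtain ⟨n, hn⟩ := rho_eventually W
  have hpos : 0 < W.d z y := lt_of_lt_of_le (by unfold r0; positivity) hd
  have hR : W.d z y ≤ (4 * Fintype.card V) / kap := by
    have h1 := d_lt_card W z y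
    rw [le_div_iff₀ kap_pos]
    have h2 : W.d z y * kap ≤ W.d z y * 1 :=
      mul_le_mul_of_nonneg_left (by unfold kap; norm_num) hpos.le
    linarith
  have hn' : ∀ x, ST.H188.rho W.d kap W.uns ((4 * Fintype.card V) / kap) n x = 0 := fun x => by
    rw [← rho_eq]
    exact hn x
  obtain ⟨i, _, h1, h2, h3⟩ := ST.H188.exists_level (κ := kap) (d_self W) hn' (x := z)
    (s := W.d z y) hpos hR
  rw [← rho_eq] at h1 h2
  have h4 : ¬ W.uns (W.rho i) z y := by
    have := h3 y le_rfl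
    rw [← rho_eq] at this
    exact this
  refine ⟨i, hz, hy, hu, hi, hd, h1, h2, ?_⟩
  by_contra hcon
  push Not at hcon
  exact h4 ⟨hz, hy, hu, hi, hd, hcon.1, fun k m hm hl => hcon.2 k m hm hl⟩

end Vale.Agent.P235.STO.H188
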