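import Vale.Agent.P235.ST.H188.Plan

/-!
# P235, the static plan with the lists of scales
-/

set_option autoImplicit false

namespace Vale.Agent.P235.ST.H188

variable {V : Type*} [Fintype V]

/-- The exponent `k` is in the list for the scale `r`. -/
def InList (d1 dl r : ℝ) (k : ℕ) : Prop := 4 ≤ k ∧ d1 * r ≤ 2 ^ k ∧ (2 : ℝ) ^ k ≤ dl * r

/-- Unserved pairs. -/
def UnsP (d : V → V → ℝ) (κ d1 dl r0 : ℝ) (Elig : V → V → Prop) (Srv : ℕ → V → V → Prop)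
    (ρ : V → ℝ) (z y : V) : Prop :=
  Elig z y ∧ r0 ≤ d z y ∧ d z y ≤ κ / 2 * ρ z ∧ ∀ k, InList d1 dl (ρ z) k → ¬ Srv k z y

lemma exists_pow (r : ℝ) : ∃ k : ℕ, 4 ≤ k ∧ r ≤ 2 ^ k ∧ (k = 4 ∨ (2 : ℝ) ^ k < 2 * r) := by
  classical
  have hP : ∃ k : ℕ, 4 ≤ k ∧ r ≤ (2 : ℝ) ^ k := by
    obtain ⟨n, hn⟩ := pow_unbounded_of_one_lt r (by norm_num : (1 : ℝ) < 2)
    exact ⟨n + 4, by omega, hn.le.trans (pow_le_pow_right₀ (by norm_num) (by omega))⟩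
  obtain ⟨h1, h2⟩ := Nat.find_spec hP
  refine ⟨Nat.find hP, h1, h2, ?_⟩
  rcases h1.lt_or_eq with h3 | h3
  · right
    have h4 := Nat.find_min hP (m := Nat.find hP - 1) (by omega)
    push Not at h4
    have h5 := h4 (by omega)
    obtain ⟨j, hj⟩ := Nat.exists_eq_succ_of_ne_zero (by omega : Nat.find hP ≠ 0)
    rw [hj] at h5 ⊢
    simp only [Nat.succ_eq_add_one, Nat.add_sub_cancel] at h5
    rw [Nat.succ_eq_add_one, pow_succ]
    linarith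
  · left
    exact h3.symm

section
variable {d : V → V → ℝ} {κ d1 dl r0 R : ℝ} {Elig : V → V → Prop} {Srv : ℕ → V → V → Prop}

omit [Fintype V] in
lemma uns_le (hκ : 0 < κ) (hdl : 2 * d1 ≤ dl) (hdk : κ ≤ 16 * dl) (hd1 : 0 < d1)
    (hr0 : 128 < r0) (hT : ∀ k z y, 8 * (2 : ℝ) ^ k < d z y → Elig z y → Srv k z y)
    {ρ : V → ℝ} {z y : V} (h : UnsP d κ d1 dl r0 Elig Srv ρ z y) :
    d z y ≤ 16 * d1 * ρ z := by
  obtain ⟨h1, h2, h3, h4⟩ := h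
  obtain ⟨k, hk4, hk, hk'⟩ := exists_pow (d1 * ρ z)
  have hρ : 0 < ρ z := by
    by_contra hcon
    have : κ / 2 * ρ z ≤ 0 := mul_nonpos_of_nonneg_of_nonpos (by positivity) (not_lt.1 hcon)
    linarith
  have hlist : InList d1 dl (ρ z) k := by
    refine ⟨hk4, hk, ?_⟩
    rcases hk' with rfl | hk'
    · have h5 : κ * ρ z ≤ 16 * dl * ρ z := mul_le_mul_of_nonneg_right hdk hρ.le
      norm_num
      linarith
    · have h5 : 2 * d1 * ρ z ≤ dl * ρ z := mul_le_mul_of_nonneg_right hdl hρ.le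
      linarith
  have h6 := h4 k hlist
  have h7 : d z y ≤ 8 * (2 : ℝ) ^ k := by
    by_contra hcon
    exact h6 (hT k z y (not_le.1 hcon) h1)
  rcases hk' with rfl | hk'
  · norm_num at h7
    linarith
  · linarith

/-- **The static plan.** -/
theorem plan (hd : ∀ x y, 0 ≤ d x y) (hd0 : ∀ x, d x x = 0)
    (htri : ∀ x y z, d x z ≤ d x y + d y z) (hκ : 0 < κ) (hd1 : 0 < d1) (hd1' : 16 * d1 < 1)
    (hdl : 2 * d1 ≤ dl) (hdk : κ ≤ 16 * dl) (hr0 : 128 < r0) (hR : 0 ≤ R)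
    (hT : ∀ k z y, 8 * (2 : ℝ) ^ k < d z y → Elig z y → Srv k z y) :
    ∃ (m : ℕ) (rho : ℕ → V → ℝ), (∀ x, rho 0 x = R) ∧ (∀ i x, 0 ≤ rho i x) ∧
      (∀ i x y, rho i x ≤ rho i y + d y x / κ) ∧
      (∀ i x, rho (i + 1) x ≤ 16 * d1 * rho i x) ∧
      (∀ x, rho m x = 0) ∧
      (∀ i x, 0 < rho (i + 1) x → ∃ z y, Elig z y ∧ r0 ≤ d z y ∧
        rho (i + 1) x + d x z / κ = d z y ∧ d z y ≤ 16 * d1 * rho i z ∧
        d z y ≤ κ / 2 * rho i z ∧ ∀ k, InList d1 dl (rho i z) k → ¬ Srv k z y) ∧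
      ∀ x y, Elig x y → r0 ≤ d x y → d x y ≤ R →
        ∃ i, i < m ∧ rho (i + 1) x < d x y ∧ d x y ≤ rho i x ∧
          (κ / 2 * rho i x < d x y ∨
            ∃ k, InList d1 dl (rho i x) k ∧ Srv k x y ∧ d x y ≤ 16 * 2 ^ k) := by
  have hq0 : 0 ≤ 16 * d1 := by positivity
  have hU : ∀ (ρ : V → ℝ) z y, UnsP d κ d1 dl r0 Elig Srv ρ z y → d z y ≤ 16 * d1 * ρ z :=
    fun ρ z y h => uns_le hκ hdl hdk hd1 hr0 hT h
  have hU' : ∀ (ρ : V → ℝ) z y, UnsP d κ d1 dl r0 Elig Srv ρ z y →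
      r0 ≤ d z y ∧ d z y ≤ κ * ρ z / 2 := fun ρ z y h => ⟨h.2.1, by have := h.2.2.1; linarith⟩
  obtain ⟨m, hm⟩ := exists_rho_zero (R := R) hκ hd htri hR hq0 hd1' hU (by linarith : 0 < r0) hU'
  refine ⟨m, rho d κ (UnsP d κ d1 dl r0 Elig Srv) R, fun x => rfl, rho_nonneg hR,
    rho_lip hκ hd htri, rho_succ_le hκ hd htri hR hq0 hd1'.le hU, hm, ?_, ?_⟩
  · intro i x hx
    rw [rho_succ] at hx ⊢
    obtain ⟨z, y, hu, he⟩ := exists_of_nxt_pos hx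
    exact ⟨z, y, hu.1, hu.2.1, by rw [he]; ring, hU _ z y hu, hu.2.2.1, hu.2.2.2⟩
  · intro x y hE hr hdR
    obtain ⟨i, him, h1, h2, h3⟩ := exists_level (κ := κ) hd0 hm (x := x) (s := d x y)
      (by linarith) hdR
    refine ⟨i, him, h1, h2, ?_⟩
    by_cases hfar : κ / 2 * rho d κ (UnsP d κ d1 dl r0 Elig Srv) R i x < d x y
    · exact Or.inl hfar
    right
    rw [not_lt] at hfar
    have h4 := h3 y le_rfl
    have h5 : ∃ k, InList d1 dl (rho d κ (UnsP d κ d1 dl r0 Elig Srv) R i x) k ∧ Srv k x y := by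
      by_contra hcon
      push Not at hcon
      exact h4 ⟨hE, hr, hfar, hcon⟩
    obtain ⟨k0, hk0, hs0⟩ := h5
    by_cases h6 : d x y ≤ 16 * 2 ^ k0
    · exact ⟨k0, hk0, hs0, h6⟩
    rw [not_le] at h6
    classical
    have hP : ∃ k : ℕ, d x y ≤ 16 * (2 : ℝ) ^ k := by
      obtain ⟨n, hn⟩ := pow_unbounded_of_one_lt (d x y) (by norm_num : (1 : ℝ) < 2)
      refine ⟨n, ?_⟩
      have : (0 : ℝ) < 2 ^ n := by positivity
      linarith
    have h7 := Nat.find_spec hP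
    have h8 : k0 < Nat.find hP := by
      by_contra hcon
      have h9 : (2 : ℝ) ^ Nat.find hP ≤ 2 ^ k0 :=
        pow_le_pow_right₀ (by norm_num) (not_lt.1 hcon)
      linarith
    obtain ⟨j, hj⟩ := Nat.exists_eq_succ_of_ne_zero (by omega : Nat.find hP ≠ 0)
    have h10 : ¬ d x y ≤ 16 * (2 : ℝ) ^ j := Nat.find_min hP (by rw [hj]; exact Nat.lt_succ_self j)
    rw [not_le] at h10
    have h11 : 8 * (2 : ℝ) ^ Nat.find hP < d x y := by
      rw [hj, Nat.succ_eq_add_one, pow_succ]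
      linarith
    refine ⟨Nat.find hP, ⟨by have := hk0.1; omega, ?_, ?_⟩, hT _ _ _ h11 hE, h7⟩
    · exact hk0.2.1.trans (pow_le_pow_right₀ (by norm_num) h8.le)
    · have hρ0 := rho_nonneg (d := d) (κ := κ) (Uns := UnsP d κ d1 dl r0 Elig Srv) hR i x
      have h12 : κ * rho d κ (UnsP d κ d1 dl r0 Elig Srv) R i x ≤
          16 * dl * rho d κ (UnsP d κ d1 dl r0 Elig Srv) R i x :=
        mul_le_mul_of_nonneg_right hdk hρ0
      linarith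

end

end Vale.Agent.P235.ST.H188
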